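import Vale.Agent.P011Z.Defs
import Vale.Agent.P011Z.OutDefs
import Vale.Agent.P011.H925.Full.BrPlace
import Vale.Agent.P011.H961.SplitAE
import Vale.Agent.P011.H973.Full.PlaceNF

/-!
The unitary groups over number fields: the set `A(G)` is finite.
-/

namespace Vale.Agent.P011Z.ModA

open Module TensorProduct NumberField IsDedekindDomain
open Vale.Agent.P011 Vale.Agent.P011.H925.Full
open Vale.Agent.P011.H738 (Place integers maxIdeal)

namespace FinAG

section place

variable {k : Type} [Field k]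

/-- An element of a number field is integral at almost all places. -/
theorem pole_finite [NumberField k] (c : k) : {v : Place k | 1 < v.abv c}.Finite := by
  obtain ⟨a, b, hb, rfl⟩ := IsFractionRing.div_surjective (A := 𝓞 k) c
  have hb0 : b ≠ 0 := nonZeroDivisors.ne_zero hb
  have hI : Ideal.span {b} ≠ (0 : Ideal (𝓞 k)) := by simpa using hb0
  refine ((Ideal.finite_factors hI).image fun P => H308.plHos k P).subset fun w hw => ?_
  have hint : ∀ x : 𝓞 k, w.abv (algebraMap (𝓞 k) k x) ≤ 1 := fun x =>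
    H973.Full.abv_le_one_of_isIntegral w x.2
  have hfin := (H973.Full.placePrime_finite w hint).1
  refine ⟨H973.Full.placePrime w hint, ?_, (H973.Full.eq_plHos w hint).symm⟩
  rw [Set.mem_ofPred_eq, Ideal.dvd_span_singleton]
  by_contra hcon
  rw [Set.mem_ofPred_eq, map_div₀, H973.Full.abv_of_not_mem w hint hcon, div_one] at hw
  exact absurd (hint a) (not_le.2 hw)

theorem reps_one (w : Place k) : ∃ q : ℝ, 1 < q ∧ ∃ π : k, w.abv π = q ∧ ∀ n : ℕ,
    ∃ R : Finset k, ∀ x, w.abv x ≤ 1 → ∃ r ∈ R, w.abv (x - r) ≤ q⁻¹ ^ n := by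
  classical
  obtain ⟨-, ⟨π, hπ⟩, hz⟩ := w.normalized
  have hq := H973.Full.one_lt_res w
  obtain ⟨S, -, hS, -⟩ := (isPlace_abv w).2
  set q : ℝ := (Nat.card (integers w.abv w.nonarch ⧸ maxIdeal w.abv w.nonarch) : ℝ) with hqdef
  have hq0 : 0 < q := zero_lt_one.trans hq
  have hπ0 : π ≠ 0 := by
    rintro rfl
    rw [map_zero] at hπ
    exact hq0.ne hπ
  have hlt : ∀ y : k, w.abv y < 1 → w.abv (π * y) ≤ 1 := by
    intro y hy
    by_cases h0 : y = 0
    · simp [h0]
    obtain ⟨m, hm⟩ := hz y h0
    have hm0 : m < 0 := by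
      by_contra hcon
      exact absurd hy (not_lt.2 (hm ▸ one_le_zpow₀ hq.le (not_lt.1 hcon)))
    rw [map_mul, hπ, hm, ← zpow_one_add₀ hq0.ne']
    exact zpow_le_one_of_nonpos₀ hq.le (by omega)
  refine ⟨q, hq, π, hπ, fun n => ?_⟩
  induction n with
  | zero => exact ⟨{0}, fun x hx => ⟨0, Finset.mem_singleton_self _, by simpa using hx⟩⟩
  | succ n ih =>
    obtain ⟨R, hR⟩ := ih
    refine ⟨(S ×ˢ R).image fun p => p.1 + π⁻¹ * p.2, fun x hx => ?_⟩
    obtain ⟨s, ⟨hs, hs'⟩, -⟩ := hS x hx
    obtain ⟨r, hr, hr'⟩ := hR _ (hlt _ hs')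
    refine ⟨s + π⁻¹ * r, Finset.mem_image.2 ⟨(s, r), Finset.mem_product.2 ⟨hs, hr⟩, rfl⟩, ?_⟩
    have e : x - (s + π⁻¹ * r) = π⁻¹ * (π * (x - s) - r) := by
      field_simp
      ring
    rw [e, map_mul, map_inv₀, hπ, pow_succ']
    exact mul_le_mul_of_nonneg_left hr' (inv_nonneg.2 hq0.le)

theorem ball_reps (w : Place k) (C : ℝ) {ε : ℝ} (hε : 0 < ε) :
    ∃ R : Finset k, ∀ x : k, w.abv x ≤ C → ∃ r ∈ R, w.abv (x - r) ≤ ε := by
  classical
  obtain ⟨q, hq, π, hπ, h⟩ := reps_one w
  have hq0 : 0 < q := zero_lt_one.trans hq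
  have hπ0 : π ≠ 0 := by
    rintro rfl
    rw [map_zero] at hπ
    exact hq0.ne hπ
  obtain ⟨N, hN⟩ := pow_unbounded_of_one_lt C hq
  have hqN : 0 < q ^ N := pow_pos hq0 N
  obtain ⟨n, hn⟩ := exists_pow_lt_of_lt_one (div_pos hε hqN) (inv_lt_one_of_one_lt₀ hq)
  obtain ⟨R, hR⟩ := h n
  refine ⟨R.image fun r => π ^ N * r, fun x hx => ?_⟩
  obtain ⟨r, hr, hr'⟩ := hR (x / π ^ N) (by
    rw [map_div₀, map_pow, hπ, div_le_one hqN]
    exact hx.trans hN.le)
  refine ⟨π ^ N * r, Finset.mem_image_of_mem _ hr, ?_⟩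
  have e : x - π ^ N * r = π ^ N * (x / π ^ N - r) := by field_simp
  rw [e, map_mul, map_pow, hπ, mul_comm, ← le_div_iff₀ hqN]
  exact hr'.trans hn.le

theorem proper (v : Place k) : ProperSpace v.comp := by
  refine ProperSpace.of_isCompact_closedBall_of_le 0 fun x r _ => ?_
  refine TotallyBounded.isCompact_of_isClosed ?_ Metric.isClosed_closedBall
  rw [Metric.totallyBounded_iff]
  intro ε hε
  obtain ⟨R, hR⟩ := ball_reps v (‖x‖ + r + 1) (half_pos hε)
  refine ⟨(R : Set k).image (algebraMap k v.comp), R.finite_toSet.image _, fun y hy => ?_⟩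
  obtain ⟨a, ha⟩ := H271.dense_alg v y (lt_min one_pos (half_pos hε))
  have h1 : v.abv a ≤ ‖x‖ + r + 1 := by
    rw [← H271.norm_alg]
    have h2 : ‖y‖ ≤ ‖x‖ + r := by
      rw [mem_closedBall_iff_norm] at hy
      calc ‖y‖ = ‖x + (y - x)‖ := by congr 1; ring
        _ ≤ ‖x‖ + ‖y - x‖ := norm_add_le _ _
        _ ≤ ‖x‖ + r := by gcongr
    calc ‖algebraMap k v.comp a‖ = ‖y - (y - algebraMap k v.comp a)‖ := by congr 1; ring
      _ ≤ ‖y‖ + ‖y - algebraMap k v.comp a‖ := norm_sub_le _ _
      _ ≤ (‖x‖ + r) + 1 := add_le_add h2 (ha.le.trans (min_le_left _ _))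
  obtain ⟨s, hs, hs2⟩ := hR a h1
  simp only [Set.mem_iUnion]
  refine ⟨algebraMap k v.comp s, ⟨s, hs, rfl⟩, ?_⟩
  rw [Metric.mem_ball, dist_eq_norm]
  have h3 : ‖algebraMap k v.comp a - algebraMap k v.comp s‖ ≤ ε / 2 := by
    rw [← map_sub, H271.norm_alg]; exact hs2
  calc ‖y - algebraMap k v.comp s‖
      = ‖(y - algebraMap k v.comp a) + (algebraMap k v.comp a - algebraMap k v.comp s)‖ := by
        congr 1; ring
    _ ≤ _ := norm_add_le _ _
    _ < ε / 2 + ε / 2 := add_lt_add_of_lt_of_le (ha.trans_le (min_le_right _ _)) h3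
    _ = ε := by ring

/-- The completion at a place is a nontrivially normed field. -/
@[reducible] noncomputable def nnf (v : Place k) : NontriviallyNormedField v.comp :=
  { (inferInstance : NormedField v.comp) with
    non_trivial := by
      obtain ⟨q, hq, π, hπ, -⟩ := reps_one v
      refine ⟨algebraMap k v.comp π, ?_⟩
      change 1 < ‖algebraMap k v.comp π‖
      rw [H271.norm_alg, hπ]
      exact hq }

end place

section alg

variable {k K A : Type} [Field k] [Field K] [Ring A] [Algebra k K] [Algebra K A]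

/-- The images of finitely many elements of `K` are integral outside a finite set of places. -/
theorem exists_int [NumberField k] [StarRing K]
    (hfix : ∀ x : K, star x = x ↔ x ∈ Set.range (algebraMap k K)) (Z : Finset K) :
    ∃ T : Set (Place k), T.Finite ∧ ∀ v ∉ T, ∀ (L : Type) [NontriviallyNormedField L]
      [IsUltrametricDist L] (φ : K →+* L), (∀ c : k, ‖φ (algebraMap k K c)‖ = v.abv c) →
      ∀ z ∈ Z, ‖φ z‖ ≤ 1 := by
  have htr : ∀ z : K, ∃ c : k, algebraMap k K c = z + star z := fun z =>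
    (hfix _).mp (by rw [star_add, star_star, add_comm])
  have hnm : ∀ z : K, ∃ c : k, algebraMap k K c = z * star z := fun z =>
    (hfix _).mp (by rw [star_mul, star_star])
  choose tr htr using htr
  choose nm hnm using hnm
  refine ⟨⋃ z ∈ Z, ({v | 1 < v.abv (tr z)} ∪ {v | 1 < v.abv (nm z)}),
    Z.finite_toSet.biUnion fun z _ => (pole_finite _).union (pole_finite _),
    fun v hv L _ _ φ hφ z hz => ?_⟩
  have h1 : v.abv (tr z) ≤ 1 := by
    by_contra hcon
    exact hv (Set.mem_biUnion hz (Or.inl (not_le.mp hcon)))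
  have h2 : v.abv (nm z) ≤ 1 := by
    by_contra hcon
    exact hv (Set.mem_biUnion hz (Or.inr (not_le.mp hcon)))
  rw [← hφ, htr] at h1
  rw [← hφ, hnm] at h2
  by_contra hcon
  rw [not_le] at hcon
  have h3 : φ z * φ z = φ (z + star z) * φ z + -φ (z * star z) := by
    rw [← sub_eq_add_neg, ← map_mul, ← map_mul, ← map_sub]
    congr 1
    ring
  have h4 : ‖φ z * φ z‖ ≤ ‖φ z‖ := by
    rw [h3]
    refine (IsUltrametricDist.norm_add_le_max _ _).trans (max_le ?_ ?_)
    · rw [norm_mul]
      exact mul_le_of_le_one_left (norm_nonneg _) h1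
    · rw [norm_neg]
      exact h2.trans hcon.le
  rw [norm_mul] at h4
  nlinarith

omit [Algebra k K] in
/-- The algebra splits over every local field in which finitely many elements are integral. -/
theorem exists_split [IsSimpleRing A] [Algebra.IsCentral K A] {n : ℕ} (hn : n ≠ 0)
    (hfinrank : finrank K A = n ^ 2) :
    ∃ Z : Finset K, ∀ (L : Type) [NontriviallyNormedField L] [ProperSpace L]
      [IsUltrametricDist L] [Algebra K L], (∀ z ∈ Z, ‖algebraMap K L z‖ ≤ 1) →
      Nonempty (L ⊗[K] A →ₐ[L] Matrix (Fin n) (Fin n) L) := by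
  classical
  have hfd : FiniteDimensional K A := Module.finite_of_finrank_pos (by rw [hfinrank]; positivity)
  let b : Basis (Fin (finrank K A)) K A := Module.finBasis K A
  have hbi : ∀ i j : Fin (finrank K A), ∃ (m : ℕ) (x y : Fin m → A),
      ∀ l, ∑ t, x t * b l * y t = if l = j then b i else 0 := by
    intro i j
    obtain ⟨m, x, y, h⟩ := H973.exists_bimul ((b.coord j).smulRight (b i))
      (Finset.univ.image b)
    refine ⟨m, x, y, fun l => ?_⟩
    rw [← h (b l) (Finset.mem_image_of_mem _ (Finset.mem_univ l)), LinearMap.smulRight_apply,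
      Basis.coord_apply, b.repr_self, Finsupp.single_apply]
    split_ifs
    · rw [one_smul]
    · rw [zero_smul]
  choose m x y hxy using hbi
  let Z : Finset K := (Finset.univ.image fun l => b.repr 1 l) ∪
    (Finset.univ.image fun p : Fin (finrank K A) × Fin (finrank K A) × Fin (finrank K A) =>
      b.repr (b p.1 * b p.2.1) p.2.2) ∪
    (Finset.univ.biUnion fun i => Finset.univ.biUnion fun j => Finset.univ.image
      fun p : Fin (m i j) × Fin (finrank K A) => b.repr (x i j p.1) p.2) ∪
    (Finset.univ.biUnion fun i => Finset.univ.biUnion fun j => Finset.univ.image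
      fun p : Fin (m i j) × Fin (finrank K A) => b.repr (y i j p.1) p.2)
  refine ⟨Z, fun L _ _ _ _ hint => ?_⟩
  have hsim : IsSimpleRing (L ⊗[K] A) := H268.isSimpleRing_baseChange
  let b' : Basis (Fin (finrank K A)) L (L ⊗[K] A) := Algebra.TensorProduct.basis L b
  have hb' : ∀ i, b' i = 1 ⊗ₜ[K] b i := fun i => Algebra.TensorProduct.basis_apply b i
  have hrep : ∀ (z : A) (l : Fin (finrank K A)),
      b'.repr (1 ⊗ₜ[K] z) l = algebraMap K L (b.repr z l) := by
    intro z l
    rw [Algebra.TensorProduct.basis_repr_tmul]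
    simp only [one_smul, Finsupp.mapRange_apply]
  exact H961.split_of_basis b' hn (by rw [Fintype.card_fin, hfinrank]) (fun l => by
      rw [Algebra.TensorProduct.one_def, hrep]
      refine hint _ ?_
      simp only [Z, Finset.mem_union]
      exact Or.inl (Or.inl (Or.inl (Finset.mem_image_of_mem _ (Finset.mem_univ l)))))
    (fun i j l => by
      rw [hb', hb', Algebra.TensorProduct.tmul_mul_tmul, one_mul, hrep]
      refine hint _ ?_
      simp only [Z, Finset.mem_union]
      exact Or.inl (Or.inl (Or.inr (Finset.mem_image.mpr ⟨(i, j, l), Finset.mem_univ _, rfl⟩))))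
    (fun i j => by
      refine ⟨m i j, fun t => 1 ⊗ₜ[K] x i j t, fun t => 1 ⊗ₜ[K] y i j t, fun t l => ?_,
        fun t l => ?_, fun l => ?_⟩
      · rw [hrep]
        refine hint _ ?_
        simp only [Z, Finset.mem_union]
        refine Or.inl (Or.inr ?_)
        rw [Finset.mem_biUnion]
        refine ⟨i, Finset.mem_univ i, ?_⟩
        rw [Finset.mem_biUnion]
        exact ⟨j, Finset.mem_univ j, Finset.mem_image.mpr ⟨(t, l), Finset.mem_univ _, rfl⟩⟩
      · rw [hrep]
        refine hint _ ?_
        simp only [Z, Finset.mem_union]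
        refine Or.inr ?_
        rw [Finset.mem_biUnion]
        refine ⟨i, Finset.mem_univ i, ?_⟩
        rw [Finset.mem_biUnion]
        exact ⟨j, Finset.mem_univ j, Finset.mem_image.mpr ⟨(t, l), Finset.mem_univ _, rfl⟩⟩
      · simp only [hb', Algebra.TensorProduct.tmul_mul_tmul, one_mul]
        rw [← TensorProduct.tmul_sum, hxy]
        split_ifs
        · rfl
        · exact TensorProduct.tmul_zero _ _)

/-- A division algebra of dimension `n²`, `n > 1`, has no homomorphism to the matrices. -/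
theorem not_div {L R : Type} [Field L] [Ring R] [Algebra L R] {n : ℕ} (hn : 1 < n)
    (hfr : finrank L R = n ^ 2) (F : R →ₐ[L] Matrix (Fin n) (Fin n) L)
    (hdiv : ∀ x : R, x ≠ 0 → IsUnit x) : False := by
  have : FiniteDimensional L R := Module.finite_of_finrank_pos (by rw [hfr]; positivity)
  have : Nonempty (Fin n) := ⟨⟨0, by omega⟩⟩
  have hinj : Function.Injective F := by
    rw [injective_iff_map_eq_zero]
    intro x hx
    by_contra hx0
    have h1 := (hdiv x hx0).map F
    rw [hx] at h1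
    exact not_isUnit_zero h1
  have hfr' : finrank L R = finrank L (Matrix (Fin n) (Fin n) L) := by
    rw [hfr, Module.finrank_matrix, Fintype.card_fin, finrank_self, mul_one, sq]
  have hsurj : Function.Surjective F.toLinearMap :=
    (LinearMap.injective_iff_surjective_of_finrank_eq_finrank hfr').mp hinj
  let i0 : Fin n := ⟨0, by omega⟩
  let i1 : Fin n := ⟨1, hn⟩
  have hi : i1 ≠ i0 := by
    intro h
    have := congrArg Fin.val h
    simp [i0, i1] at this
  obtain ⟨x, hx⟩ := hsurj (Matrix.single i0 i0 1)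
  have hx' : F x = Matrix.single i0 i0 1 := hx
  have hx0 : x ≠ 0 := by
    rintro rfl
    rw [map_zero] at hx'
    have h1 := congrFun (congrFun hx' i0) i0
    rw [Matrix.single_apply_same, Matrix.zero_apply] at h1
    exact zero_ne_one h1
  have hu := (hdiv x hx0).map F
  rw [hx'] at hu
  have h1 : (Matrix.single i0 i0 (1 : L) : Matrix (Fin n) (Fin n) L) *
      Matrix.single i1 i1 1 = 0 := Matrix.single_mul_single_of_ne _ _ _ _ hi.symm _
  have h2 := hu.mul_right_eq_zero.mp h1
  have h3 := congrFun (congrFun h2 i1) i1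
  rw [Matrix.single_apply_same, Matrix.zero_apply] at h3
  exact one_ne_zero h3

/-- The place of an element of `A(G)`. -/
def pl (v : AG k K A) : Place k := toPlace v.abv ⟨v.nonarch, v.normalized⟩

theorem pl_injective : Function.Injective (pl : AG k K A → Place k) := by
  intro v w h
  have h1 : v.abv = w.abv := congrArg Place.abv h
  cases v
  cases w
  subst h1
  rfl

end alg

end FinAG

variable {k K A Ω : Type} [Field k] [Field K] [Algebra k K] [StarRing K] [Ring A] [StarRing A]
  [Algebra k A] [Algebra K A] [IsScalarTower k K A] [StarModule K A] [Field Ω] [Algebra K Ω] {n : ℕ}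

omit [Algebra k A] [IsScalarTower k K A] [StarModule K A] in
/-- The set `A(G)` is finite. -/
theorem finite_ag [NumberField k] (h : Out k K A n) : Finite (AG k K A) := by
  have hcen := h.central
  have hsim := h.simple
  have hn := h.le
  obtain ⟨Z, hZ⟩ := FinAG.exists_split (A := A) (n := n) (by omega) h.rank
  obtain ⟨T, hT, hT'⟩ := FinAG.exists_int h.fixed Z
  refine Set.finite_univ_iff.1 ((hT.preimage FinAG.pl_injective.injOn).subset fun v _ => ?_)
  by_contra hv
  obtain ⟨φ, hφ⟩ := v.div
  let w := FinAG.pl v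
  let _ := FinAG.nnf w
  have hp := FinAG.proper w
  let ψ : K →ₐ[k] w.comp := φ
  let _ : Algebra K w.comp := (ψ : K →+* w.comp).toAlgebra
  obtain ⟨F⟩ := hZ w.comp (hT' w hv w.comp (ψ : K →+* w.comp) fun c => by
    change ‖ψ (algebraMap k K c)‖ = _
    rw [ψ.commutes, H271.norm_alg])
  exact FinAG.not_div (by omega) (by rw [Module.finrank_baseChange, h.rank]) F hφ

end Vale.Agent.P011Z.ModA
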