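import Vale.Agent.P011Z.ModA.Csp0
import Vale.Agent.P011Z.ModA.FinAG

/-!
The unitary groups over number fields: the congruence condition.
-/

namespace Vale.Agent.P011Z.ModA

open Vale.Agent.P011.H925.Full

variable {k K A Ω : Type} [Field k] [Field K] [Algebra k K] [StarRing K] [Ring A] [StarRing A]
  [Algebra k A] [Algebra K A] [IsScalarTower k K A] [StarModule K A] [Field Ω] [Algebra K Ω] {n : ℕ}

/-- The subgroups of finite index contain the elements close to one at finitely many primes. -/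
theorem csp [NumberField k] (h : Out k K A n) (f : A →ₐ[K] Matrix (Fin n) (Fin n) Ω)
    {δ : GK f →* HA k K A n} (hd : ∀ g, Diag g.1.1 (δ g)) (hQ : Q1 δ) :
    ∃ TA : Finset Nat.Primes, ∀ (J : Type) [Fintype J] (c : J → A) (H : Subgroup (GK f)),
      H.FiniteIndex → ∃ ε : ℝ, 0 < ε ∧ ∀ (g : GK f) (t : J → ℚ),
        (∀ q ∈ TA, ∀ j, ‖(t j : ℚ_[((q : Nat.Primes) : ℕ)])‖ ≤ ε) →
        (g.1.1 : A) - 1 = ∑ j, (t j : k) • c j → g ∈ H := by
  have := finite_ag h
  choose q hq using fun v : AG k K A => prime_below v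
  exact ⟨(Set.finite_range q).toFinset, fun J _ c H hH => csp_of f hd hQ
    (fun v => ⟨q v, (Set.finite_range q).mem_toFinset.2 ⟨v, rfl⟩, hq v⟩) J c H hH⟩

end Vale.Agent.P011Z.ModA
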