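import Vale.Agent.P011Z.ModA.Spl

/-!
Representations of `SL₃` on matrix algebras; ideals of the Lie algebra of trace zero matrices.
-/

open Matrix Module Algebra

namespace Vale.Agent.P011Z.ModA

variable {Ω ι : Type} [Field Ω] [Fintype ι] [DecidableEq ι] {n : ℕ}

/-- The properties of the standard embedding of `SL₃` and of its dual. -/
structure Good (r : SpecialLinearGroup (Fin 3) Ω →* Matrix (Fin n) (Fin n) Ω) : Prop where
  det : ∀ g, (r g).det = 1
  el : ∀ i j hij, ∃ E : Matrix (Fin n) (Fin n) Ω, ∀ t, r (el3 i j hij t) = 1 + t • E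
  dg : ∃ κ : Fin n → ℤ, (∀ w hw, r (dg3 w hw) = diagonal fun i => w ^ κ i) ∧ ∃ i j, κ i = κ j + 1

theorem exists_good (hn : 3 ≤ n) :
    ∃ r : SpecialLinearGroup (Fin 3) Ω →* Matrix (Fin n) (Fin n) Ω, Good r := by
  obtain ⟨k, rfl⟩ := Nat.exists_eq_add_of_le hn
  let e : Fin (3 + k) ≃ Fin 3 ⊕ Fin k := finSumFinEquiv.symm
  let r : SpecialLinearGroup (Fin 3) Ω →* Matrix (Fin (3 + k)) (Fin (3 + k)) Ω :=
    { toFun := fun g => (fromBlocks g.1 0 0 (1 : Matrix (Fin k) (Fin k) Ω)).submatrix e e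
      map_one' := by simp
      map_mul' := fun g h => by simp [submatrix_mul_equiv, fromBlocks_multiply] }
  have hr : ∀ g, r g = (fromBlocks g.1 0 0 (1 : Matrix (Fin k) (Fin k) Ω)).submatrix e e :=
    fun g => rfl
  refine ⟨r, fun g => ?_, fun i j hij =>
    ⟨(fromBlocks (single i j 1) 0 0 (0 : Matrix (Fin k) (Fin k) Ω)).submatrix e e, fun t => ?_⟩,
    (Sum.elim ![1, 0, -1] fun _ => 0) ∘ e, fun w hw => ?_, e.symm (.inl 0), e.symm (.inl 1), by simp⟩
  · rw [hr, det_submatrix_equiv_self, det_fromBlocks_zero₂₁, g.2, det_one, one_mul]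
  · have h : fromBlocks (transvection i j t) 0 0 (1 : Matrix (Fin k) (Fin k) Ω)
        = 1 + t • fromBlocks (single i j 1) 0 0 0 := by
      rw [← fromBlocks_one, fromBlocks_smul, fromBlocks_add]
      simp [transvection]
    refine (congrArg (fun M => M.submatrix e e) h).trans ?_
    rw [← submatrix_one_equiv e]
    rfl
  · rw [hr, ← diagonal_one]
    change (fromBlocks (diagonal _) _ _ _).submatrix e e = _
    rw [fromBlocks_diagonal, submatrix_diagonal_equiv]
    congr 1
    funext i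
    simp only [Function.comp_apply]
    rcases e i with a | a
    · fin_cases a <;> simp
    · simp

/-- The dual representation. -/
def drep (r : SpecialLinearGroup (Fin 3) Ω →* Matrix (Fin n) (Fin n) Ω) :
    SpecialLinearGroup (Fin 3) Ω →* Matrix (Fin n) (Fin n) Ω where
  toFun g := (r g⁻¹)ᵀ
  map_one' := by rw [inv_one, map_one, transpose_one]
  map_mul' g h := by rw [_root_.mul_inv_rev, map_mul, transpose_mul]

theorem drep_apply (r : SpecialLinearGroup (Fin 3) Ω →* Matrix (Fin n) (Fin n) Ω)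
    (g : SpecialLinearGroup (Fin 3) Ω) : drep r g = (r g⁻¹)ᵀ := rfl

theorem drep_drep (r : SpecialLinearGroup (Fin 3) Ω →* Matrix (Fin n) (Fin n) Ω) :
    drep (drep r) = r := MonoidHom.ext fun g => by
  rw [drep_apply, drep_apply, inv_inv, transpose_transpose]

theorem Good.drep {r : SpecialLinearGroup (Fin 3) Ω →* Matrix (Fin n) (Fin n) Ω} (h : Good r) :
    Good (drep r) := by
  refine ⟨fun g => by rw [drep_apply, det_transpose, h.det], fun i j hij => ?_, ?_⟩
  · obtain ⟨E, hE⟩ := h.el i j hij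
    refine ⟨-Eᵀ, fun t => ?_⟩
    have e : (el3 i j hij t)⁻¹ = el3 i j hij (-t) := inv_eq_of_mul_eq_one_right (Subtype.ext (by
      change transvection i j t * transvection i j (-t) = 1
      rw [transvection_mul_transvection_same i j hij, add_neg_cancel, transvection_zero]))
    rw [drep_apply, e, hE]
    simp
  · obtain ⟨κ, h1, i, j, h2⟩ := h.dg
    refine ⟨fun i => -κ i, fun w hw => ?_, j, i, by simp [h2]⟩
    have e : (dg3 w hw)⁻¹ = dg3 w⁻¹ (inv_ne_zero hw) := inv_eq_of_mul_eq_one_right (Subtype.ext (by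
      change diagonal _ * diagonal _ = 1
      rw [diagonal_mul_diagonal, ← diagonal_one]
      congr 1
      funext a
      fin_cases a <;> simp [hw]))
    rw [drep_apply, e, h1, diagonal_transpose]
    simp

/-- The action on the matrix algebra by left multiplication. -/
noncomputable def lrep (bf : Basis ι Ω (Matrix (Fin n) (Fin n) Ω))
    (r : SpecialLinearGroup (Fin 3) Ω →* Matrix (Fin n) (Fin n) Ω) :
    SpecialLinearGroup (Fin 3) Ω →* Matrix ι ι Ω :=
  (leftMulMatrix bf : Matrix (Fin n) (Fin n) Ω →* Matrix ι ι Ω).comp r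

theorem lrep_apply (bf : Basis ι Ω (Matrix (Fin n) (Fin n) Ω))
    (r : SpecialLinearGroup (Fin 3) Ω →* Matrix (Fin n) (Fin n) Ω)
    (g : SpecialLinearGroup (Fin 3) Ω) : lrep bf r g = leftMulMatrix bf (r g) := rfl

theorem Good.rep3 [TopologicalSpace Ω] [IsTopologicalRing Ω]
    {r : SpecialLinearGroup (Fin 3) Ω →* Matrix (Fin n) (Fin n) Ω} (h : Good r)
    (bf : Basis ι Ω (Matrix (Fin n) (Fin n) Ω)) : Rep3 (lrep bf r) := by
  refine ⟨fun i j hij => ?_, fun w hw => ?_⟩
  · obtain ⟨E, hE⟩ := h.el i j hij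
    simp only [lrep_apply, hE, map_add, map_smul]
    fun_prop
  · obtain ⟨κ, h1, -⟩ := h.dg
    refine ⟨Finset.univ.image κ, fun v => ?_⟩
    obtain ⟨Y, rfl⟩ := bf.equivFun.surjective v
    refine ⟨fun k => bf.equivFun (diagonal (fun i => if κ i = k then 1 else 0) * Y), ?_, fun k => ?_⟩
    · rw [← map_sum, ← Finset.sum_mul]
      congr 1
      ext i j
      rw [mul_apply, Finset.sum_eq_single i]
      · simp [Matrix.sum_apply]
      · intro l _ hl
        simp [Matrix.sum_apply, diagonal_apply_ne _ hl.symm]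
      · simp
    · beta_reduce
      rw [lrep_apply, h1, Basis.equivFun_apply, leftMulMatrix_mulVec_repr, ← Basis.equivFun_apply,
        ← Basis.equivFun_apply, ← map_smul, ← Matrix.mul_assoc, ← smul_mul, diagonal_mul_diagonal,
        ← diagonal_smul]
      congr 3
      funext i
      by_cases hk : κ i = k <;> simp [hk]

theorem Good.noncomm {r : SpecialLinearGroup (Fin 3) Ω →* Matrix (Fin n) (Fin n) Ω} (h : Good r)
    {w : Ω} (hw : w ≠ 0) (h1 : w ≠ 1) : ∃ Z : Matrix (Fin n) (Fin n) Ω, Z.trace = 0 ∧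
      r (dg3 w hw) * Z ≠ Z * r (dg3 w hw) := by
  obtain ⟨κ, h2, i, j, h3⟩ := h.dg
  have hij : i ≠ j := fun e => by rw [e] at h3; omega
  refine ⟨single i j 1, trace_single_eq_of_ne i j 1 hij, fun e => h1 ?_⟩
  have h4 := congrFun (congrFun e i) j
  rw [h2, diagonal_mul, mul_diagonal, single_apply_same, mul_one, one_mul, h3, zpow_add_one₀ hw]
    at h4
  exact mul_left_cancel₀ (zpow_ne_zero (κ j) hw) (h4.trans (mul_one _).symm)

section prime

variable [CharZero Ω] {I J : Submodule Ω (Matrix (Fin n) (Fin n) Ω)}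

theorem single_mem_of_ne (hI : ∀ X : Matrix (Fin n) (Fin n) Ω, X.trace = 0 → ∀ Y ∈ I,
    X * Y - Y * X ∈ I) {Y : Matrix (Fin n) (Fin n) Ω} (hY : Y ∈ I) {i j : Fin n} (hij : i ≠ j)
    (h : Y j i ≠ 0) : single i j (1 : Ω) ∈ I := by
  have ht := trace_single_eq_of_ne i j (1 : Ω) hij
  have h1 := hI _ ht _ (hI _ ht _ hY)
  have h2 : single i j (1 : Ω) * single i j (1 : Ω) = 0 := single_mul_single_of_ne 1 i j i hij.symm 1
  have h3 : single i j (1 : Ω) * Y * single i j (1 : Ω) = Y j i • single i j (1 : Ω) := by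
    rw [single_mul_mul_single]
    simp
  have h4 : single i j (1 : Ω) * (single i j 1 * Y - Y * single i j 1)
      - (single i j 1 * Y - Y * single i j 1) * single i j 1 = (-2 * Y j i) • single i j (1 : Ω) := by
    rw [mul_sub, sub_mul, ← Matrix.mul_assoc, h2, ← Matrix.mul_assoc, h3, Matrix.mul_assoc Y, h2,
      mul_smul]
    simp [two_smul]
    abel
  rw [h4] at h1
  exact (I.smul_mem_iff (mul_ne_zero (by norm_num) h)).1 h1

omit [CharZero Ω] in
theorem single_mem_of_diag (hI : ∀ X : Matrix (Fin n) (Fin n) Ω, X.trace = 0 → ∀ Y ∈ I,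
    X * Y - Y * X ∈ I) {d : Fin n → Ω} (hY : diagonal d ∈ I) {i j : Fin n} (h : d j ≠ d i) :
    single i j (1 : Ω) ∈ I := by
  have hij : i ≠ j := fun e => h (by rw [e])
  have h1 := hI _ (trace_single_eq_of_ne i j (1 : Ω) hij) _ hY
  have h2 : single i j (1 : Ω) * diagonal d - diagonal d * single i j 1
      = (d j - d i) • single i j (1 : Ω) := by
    ext a c
    rw [Matrix.sub_apply, mul_diagonal, diagonal_mul, Matrix.smul_apply, single_apply]
    split_ifs with e
    · rw [e.1, e.2]; simp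
    · simp
  rw [h2] at h1
  exact (I.smul_mem_iff (sub_ne_zero.2 h)).1 h1

/-- A nonzero ideal contains the elementary matrices of one row and one column. -/
theorem exists_row (hI : ∀ X : Matrix (Fin n) (Fin n) Ω, X.trace = 0 → ∀ Y ∈ I,
    X * Y - Y * X ∈ I) (ht : ∀ Y ∈ I, Y.trace = 0) (h0 : I ≠ ⊥) :
    ∃ i, (∃ j, j ≠ i) ∧ ∀ j ≠ i, single i j (1 : Ω) ∈ I ∧ single j i (1 : Ω) ∈ I := by
  obtain ⟨Y, hY, hY0⟩ := Submodule.exists_mem_ne_zero_of_ne_bot h0
  obtain ⟨i, j, hij, h1⟩ : ∃ i j, i ≠ j ∧ single i j (1 : Ω) ∈ I := by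
    by_cases h : ∃ i j, i ≠ j ∧ Y j i ≠ 0
    · obtain ⟨i, j, hij, h⟩ := h
      exact ⟨i, j, hij, single_mem_of_ne hI hY hij h⟩
    · have e : Y = diagonal fun i => Y i i := by
        ext a c
        rw [diagonal_apply]
        split_ifs with e
        · rw [e]
        · by_contra h2
          exact h ⟨c, a, Ne.symm e, h2⟩
      obtain ⟨i, j, h2⟩ : ∃ i j, Y j j ≠ Y i i := by
        by_contra h2
        simp only [not_exists, not_not] at h2
        refine hY0 (e.trans ?_)
        rw [← diagonal_zero]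
        congr 1
        funext a
        have h3 : ∑ c, Y c c = 0 := ht Y hY
        rw [Finset.sum_congr rfl fun c _ => h2 a c, Finset.sum_const, nsmul_eq_mul,
          mul_eq_zero, Nat.cast_eq_zero, Finset.card_eq_zero] at h3
        exact h3.resolve_left (Finset.ne_empty_of_mem (Finset.mem_univ a))
      rw [e] at hY
      exact ⟨i, j, fun e => h2 (by rw [e]), single_mem_of_diag hI hY h2⟩
  have h2 := hI _ (trace_single_eq_of_ne j i (1 : Ω) hij.symm) _ h1
  have h3 : single j i (1 : Ω) * single i j 1 - single i j 1 * single j i 1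
      = diagonal fun a => if a = i then -1 else if a = j then 1 else 0 := by
    rw [single_mul_single_same, single_mul_single_same]
    ext a c
    rw [Matrix.sub_apply, single_apply, single_apply, diagonal_apply]
    by_cases h4 : a = c
    · subst h4
      by_cases h5 : a = i
      · subst h5; simp [hij.symm]
      · by_cases h6 : a = j
        · subst h6; simp [hij, hij.symm]
        · simp [h5, h6, Ne.symm h5, Ne.symm h6]
    · rw [if_neg h4, if_neg fun e => h4 (e.1.symm.trans e.2),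
        if_neg fun e => h4 (e.1.symm.trans e.2), sub_zero]
  rw [h3] at h2
  refine ⟨i, ⟨j, hij.symm⟩, fun a ha => ?_⟩
  have h4 : (if a = i then (-1 : Ω) else if a = j then 1 else 0) ≠
      if i = i then -1 else if i = j then 1 else 0 := by
    rw [if_neg ha, if_pos rfl]
    split_ifs <;> norm_num
  exact ⟨single_mem_of_diag hI h2 h4, single_mem_of_diag hI h2 h4.symm⟩

theorem sl_prime (hI : ∀ X : Matrix (Fin n) (Fin n) Ω, X.trace = 0 → ∀ Y ∈ I, X * Y - Y * X ∈ I)
    (hJ : ∀ X : Matrix (Fin n) (Fin n) Ω, X.trace = 0 → ∀ Y ∈ J, X * Y - Y * X ∈ J)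
    (tI : ∀ Y ∈ I, Y.trace = 0) (tJ : ∀ Y ∈ J, Y.trace = 0)
    (h : ∀ X ∈ I, ∀ Y ∈ J, X * Y = Y * X) : I = ⊥ ∨ J = ⊥ := by
  by_contra hc
  obtain ⟨i, ⟨j, hj⟩, h1⟩ := exists_row hI tI fun e => hc (Or.inl e)
  obtain ⟨k, -, h2⟩ := exists_row hJ tJ fun e => hc (Or.inr e)
  obtain ⟨a, ha, h3, h4⟩ : ∃ a ≠ i, single i a (1 : Ω) ∈ I ∧ single a i (1 : Ω) ∈ J := by
    by_cases e : k = i
    · subst e
      exact ⟨j, hj, (h1 j hj).1, (h2 j hj).2⟩
    · exact ⟨k, e, (h1 k e).1, (h2 i (Ne.symm e)).1⟩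
  have h5 := congrFun (congrFun (h _ h3 _ h4) i) i
  rw [single_mul_single_same, single_mul_single_same] at h5
  simp [ha] at h5

end prime

end Vale.Agent.P011Z.ModA
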