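import Vale.Agent.P011Z.ModA.Sys
import Vale.Agent.P011Z.ModA.Rep

/-!
The system of the special unitary group after extension of the scalars.
-/

open Matrix Module Algebra

namespace Vale.Agent.P011Z.ModA

variable {K A Ω : Type} [Field K] [StarRing K] [Ring A] [StarRing A] [Algebra K A] [StarModule K A]
  [Field Ω] {N n : ℕ} {b : Basis (Fin N) K A}

theorem sq_evE {τ : K →+* Ω} {f : A →+* Matrix (Fin n) (Fin n) Ω}
    {bf bg : Basis (Fin N) Ω (Matrix (Fin n) (Fin n) Ω)} (h : Spl τ f) (hb : ∀ i, bf i = f (b i))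
    (hg : ∀ i, bg i = dual f (b i)) (φ : A →ₗ[K] K) (x : Fin 2 → Fin N → Ω) :
    (sq b φ).evE τ x = bf.constr Ω (fun i => τ (φ (b i)))
      ((bg.equivFun.symm (x 0))ᵀ * bf.equivFun.symm (x 1)) := by
  have h1 : ∀ a, bf.constr Ω (fun i => τ (φ (b i))) (f a) = τ (φ a) := fun a => by
    rw [h.eq_sum hb, map_sum]
    conv_rhs => rw [← b.sum_repr a, map_sum, map_sum]
    exact Finset.sum_congr rfl fun i _ => by
      rw [map_smul, Basis.constr_basis, map_smul, smul_eq_mul, smul_eq_mul, map_mul]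
  rw [Basis.equivFun_symm_apply, Basis.equivFun_symm_apply, transpose_sum, Finset.sum_mul_sum,
    map_sum]
  refine (sum_two _).trans (Finset.sum_congr rfl fun i _ => ?_)
  rw [map_sum]
  refine Finset.sum_congr rfl fun l _ => ?_
  rw [transpose_smul, smul_mul_smul_comm, map_smul, smul_eq_mul, mul_comm, hg, dual_apply,
    transpose_transpose, hb, ← map_mul, h1]
  exact congrArg (· * _) (Fin.prod_univ_two _)

variable [IsSimpleRing A] [CharZero K]

theorem pres {f : (K →+* Ω) → A →+* Matrix (Fin n) (Fin n) Ω}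
    {bf : (K →+* Ω) → Basis (Fin N) Ω (Matrix (Fin n) (Fin n) Ω)}
    {r : (K →+* Ω) → SpecialLinearGroup (Fin 3) Ω →* Matrix (Fin n) (Fin n) Ω}
    (h : ∀ τ, Spl τ (f τ)) (hb : ∀ τ i, bf τ i = f τ (b i))
    (hf : ∀ τ, f (τ.comp (starRingEnd K)) = dual (f τ))
    (hr : ∀ τ, r (τ.comp (starRingEnd K)) = drep (r τ)) (hd : ∀ τ g, (r τ g).det = 1) :
    (sys b).Pres fun τ g => lrep (bf τ) (r τ) g := by
  refine forall_T b (fun φ τ g x => ?_) fun τ g x => ?_
  · have hg : ∀ i, bf (τ.comp (starRingEnd K)) i = dual (f τ) (b i) := fun i => by rw [hb, hf]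
    rw [sq_evE (h τ) (hb τ) hg, sq_evE (h τ) (hb τ) hg]
    congr 1
    change ((bf (τ.comp (starRingEnd K))).equivFun.symm (leftMulMatrix (bf (τ.comp (starRingEnd K)))
      (r (τ.comp (starRingEnd K)) g) *ᵥ x 0))ᵀ *
      (bf τ).equivFun.symm (leftMulMatrix (bf τ) (r τ g) *ᵥ x 1) = _
    rw [el_lmm, el_lmm, hr, drep_apply, transpose_mul, transpose_transpose, Matrix.mul_assoc,
      ← Matrix.mul_assoc (r τ g⁻¹), ← map_mul, inv_mul_cancel, map_one, Matrix.one_mul]
  · rw [dt_evE, dt_evE]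
    refine (det_rows (leftMulMatrix (bf τ) (r τ g)) x).trans ?_
    rw [det_lmm, hd, one_pow, mul_one]

variable [CharZero Ω] {τ : K →+* Ω} {f : A →+* Matrix (Fin n) (Fin n) Ω}
  {bf : Basis (Fin N) Ω (Matrix (Fin n) (Fin n) Ω)}

theorem mem_lieE (h : Spl τ f) (hb : ∀ i, bf i = f (b i)) (hn : n ≠ 0)
    (hs : ∀ x, tr b (star x) = star (tr b x)) (hd : ∃ d : K, star d ≠ d)
    {Y : Matrix (Fin N) (Fin N) Ω} :
    Y ∈ (sys b).lieE τ ↔ ∃ Z, Z.trace = 0 ∧ Y = leftMulMatrix bf Z := by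
  have hn' : (n : Ω) ≠ 0 := Nat.cast_ne_zero.2 hn
  constructor
  · intro hY
    induction hY using Submodule.span_induction with
    | mem Y hY =>
      obtain ⟨X, hX, rfl⟩ := hY
      obtain ⟨y, rfl, hy⟩ := of_mem_lie b hX
      have h1 := h.tr hb y
      rw [hy, map_zero] at h1
      exact ⟨f y, (mul_eq_zero.1 h1.symm).resolve_left hn', h.lmm hb y⟩
    | zero => exact ⟨0, trace_zero _ _, (map_zero _).symm⟩
    | add X Y _ _ hX hY =>
      obtain ⟨X, h1, rfl⟩ := hX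
      obtain ⟨Y, h2, rfl⟩ := hY
      exact ⟨X + Y, by rw [trace_add, h1, h2, add_zero], (map_add _ _ _).symm⟩
    | smul c X _ hX =>
      obtain ⟨X, h1, rfl⟩ := hX
      exact ⟨c • X, by rw [trace_smul, h1, smul_zero], (map_smul _ _ _).symm⟩
  · rintro ⟨Z, hZ, rfl⟩
    have h1 : ∀ y, tr b y = 0 → leftMulMatrix bf (f y) ∈ (sys b).lieE τ := fun y hy => by
      obtain ⟨y₁, y₂, c₁, c₂, s₁, s₂, t₁, t₂, rfl⟩ := exists_skew b hs hd hy
      rw [map_add, h, h, map_add, map_smul, map_smul, ← h.lmm hb, ← h.lmm hb]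
      exact add_mem (Submodule.smul_mem _ _ (Submodule.subset_span ⟨_, lmm_mem_lie b s₁ t₁, rfl⟩))
        (Submodule.smul_mem _ _ (Submodule.subset_span ⟨_, lmm_mem_lie b s₂ t₂, rfl⟩))
    have h0 : tr b 1 ≠ 0 := fun e => by
      have h2 := h.tr hb 1
      rw [e, map_zero, map_one, trace_one, Fintype.card_fin] at h2
      exact mul_ne_zero hn' hn' h2.symm
    have h2 : ∑ i, bf.repr Z i * τ (tr b (b i)) = 0 := by
      rw [← bf.sum_repr Z, trace_sum] at hZ
      simp only [h.tr hb, ← hb, mul_left_comm _ (n : Ω), ← Finset.mul_sum]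
      simp only [trace_smul, smul_eq_mul] at hZ
      rw [hZ, mul_zero]
    have h3 : Z = ∑ i, bf.repr Z i • f (b i - (tr b (b i) / tr b 1) • 1) := by
      simp only [map_sub, h _ 1, map_one, smul_sub, Finset.sum_sub_distrib, smul_smul, ← hb,
        ← Finset.sum_smul, map_div₀, ← mul_div_assoc, ← Finset.sum_div]
      rw [h2, zero_div, zero_smul, sub_zero, bf.sum_repr]
    rw [h3, map_sum]
    refine Submodule.sum_mem _ fun i _ => ?_
    rw [map_smul]
    refine Submodule.smul_mem _ _ (h1 _ ?_)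
    rw [map_sub, map_smul, smul_eq_mul, div_mul_cancel₀ _ h0, sub_self]

theorem prime (h : Spl τ f) (hb : ∀ i, bf i = f (b i)) (hn : n ≠ 0)
    (hs : ∀ x, tr b (star x) = star (tr b x)) (hd : ∃ d : K, star d ≠ d) : (sys b).Prime τ := by
  intro I J hI hJ bI bJ hc
  have inj := leftMulMatrix_injective bf
  have br : ∀ {I : Submodule Ω (Matrix (Fin N) (Fin N) Ω)},
      (∀ X ∈ (sys b).lieE τ, ∀ Y ∈ I, X * Y - Y * X ∈ I) → ∀ X : Matrix (Fin n) (Fin n) Ω,
      X.trace = 0 → ∀ Y ∈ I.comap (leftMulMatrix bf).toLinearMap,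
      X * Y - Y * X ∈ I.comap (leftMulMatrix bf).toLinearMap := fun {I} bI X hX Y hY => by
    have h1 := bI _ ((mem_lieE h hb hn hs hd).2 ⟨X, hX, rfl⟩) _ hY
    rwa [AlgHom.toLinearMap_apply, ← map_mul, ← map_mul, ← map_sub] at h1
  have tt : ∀ {I : Submodule Ω (Matrix (Fin N) (Fin N) Ω)}, I ≤ (sys b).lieE τ →
      ∀ Y ∈ I.comap (leftMulMatrix bf).toLinearMap, Y.trace = 0 := fun {I} hI Y hY => by
    obtain ⟨Z, hZ, e⟩ := (mem_lieE h hb hn hs hd).1 (hI hY)
    rw [inj e, hZ]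
  have bt : ∀ {I : Submodule Ω (Matrix (Fin N) (Fin N) Ω)}, I ≤ (sys b).lieE τ →
      I.comap (leftMulMatrix bf).toLinearMap = ⊥ → I = ⊥ := fun {I} hI e => by
    refine (Submodule.eq_bot_iff _).2 fun Y hY => ?_
    obtain ⟨Z, -, rfl⟩ := (mem_lieE h hb hn hs hd).1 (hI hY)
    rw [(Submodule.eq_bot_iff _).1 e Z hY, map_zero]
  exact (sl_prime (br bI) (br bJ) (tt hI) (tt hJ) fun X hX Y hY => inj (by
    rw [map_mul, map_mul]
    exact hc _ hX _ hY)).imp (bt hI) (bt hJ)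

omit [IsSimpleRing A] [CharZero K] [CharZero Ω] in
/-- A choice of splittings and representations compatible with the involution. -/
theorem exists_compat (hd : ∃ d : K, star d ≠ d) (hn : 3 ≤ n)
    (h : ∀ τ : K →+* Ω, ∃ f : A →+* Matrix (Fin n) (Fin n) Ω, Spl τ f) :
    ∃ (f : (K →+* Ω) → A →+* Matrix (Fin n) (Fin n) Ω)
      (r : (K →+* Ω) → SpecialLinearGroup (Fin 3) Ω →* Matrix (Fin n) (Fin n) Ω),
      (∀ τ, Spl τ (f τ)) ∧ (∀ τ, f (τ.comp (starRingEnd K)) = dual (f τ)) ∧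
      (∀ τ, r (τ.comp (starRingEnd K)) = drep (r τ)) ∧ ∀ τ, Good (r τ) := by
  classical
  choose f hf using h
  obtain ⟨r, hr⟩ := exists_good (Ω := Ω) hn
  obtain ⟨d, hd⟩ := hd
  have hss : ∀ τ : K →+* Ω, (τ.comp (starRingEnd K)).comp (starRingEnd K) = τ := fun τ =>
    RingHom.ext fun x => congrArg τ (star_star x)
  have hne : ∀ τ : K →+* Ω, τ.comp (starRingEnd K) ≠ τ := fun τ e =>
    hd (τ.injective (RingHom.congr_fun e d))
  have hdd : ∀ g : A →+* Matrix (Fin n) (Fin n) Ω, dual (dual g) = g := fun g =>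
    RingHom.ext fun x => by rw [dual_apply, dual_apply, star_star, transpose_transpose]
  let P : (K →+* Ω) → Prop := fun τ => WellOrderingRel τ (τ.comp (starRingEnd K))
  have hP : ∀ τ, P (τ.comp (starRingEnd K)) ↔ ¬ P τ := fun τ => by
    simp only [P, hss]
    exact ⟨fun h => asymm h, fun h =>
      ((trichotomous_of WellOrderingRel _ _).resolve_left h).resolve_left (hne τ).symm⟩
  refine ⟨fun τ => if P τ then f τ else dual (f (τ.comp (starRingEnd K))),
    fun τ => if P τ then r else drep r, fun τ => ?_, fun τ => ?_, fun τ => ?_, fun τ => ?_⟩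
  · beta_reduce
    split_ifs
    · exact hf τ
    · have h1 := (hf (τ.comp (starRingEnd K))).dual
      rwa [hss] at h1
  · beta_reduce
    by_cases h1 : P τ
    · rw [if_pos h1, if_neg (fun h2 => (hP τ).1 h2 h1), hss]
    · rw [if_neg h1, if_pos ((hP τ).2 h1), hdd]
  · beta_reduce
    by_cases h1 : P τ
    · rw [if_pos h1, if_neg (fun h2 => (hP τ).1 h2 h1)]
    · rw [if_neg h1, if_pos ((hP τ).2 h1), drep_drep]
  · beta_reduce
    split_ifs
    exacts [hr, hr.drep]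

end Vale.Agent.P011Z.ModA
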