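import Vale.Agent.P011Z.Defs
import Vale.Agent.P011.H925.Full.DefsA

/-!
The unitary groups over number fields: the prime below a place and the congruence condition.
-/

namespace Vale.Agent.P011Z.ModA

open Vale.Agent.P011.H925.Full TensorProduct Topology Filter

variable {k K A Ω : Type} [Field k] [Field K] [Algebra k K] [StarRing K] [Ring A] [StarRing A]
  [Algebra k A] [Algebra K A] [IsScalarTower k K A] [StarModule K A] [Field Ω] [Algebra K Ω] {n : ℕ}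

namespace Csp

/-- The restriction of an absolute value to the rationals. -/
noncomputable def resQ [CharZero k] (w : AbsoluteValue k ℝ) : AbsoluteValue ℚ ℝ :=
  w.comp (f := Rat.castHom k) (Rat.castHom k).injective

theorem resQ_apply [CharZero k] (w : AbsoluteValue k ℝ) (t : ℚ) : resQ w t = w (t : k) := rfl

theorem nat_le_one {w : AbsoluteValue k ℝ} (h : ∀ x y, w (x + y) ≤ max (w x) (w y)) (m : ℕ) :
    w (m : k) ≤ 1 := by
  induction m with
  | zero => simp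
  | succ m ih =>
    rw [Nat.cast_succ]
    exact (h _ _).trans (max_le ih (by simp))

theorem exists_small [CharZero k] {w : AbsoluteValue k ℝ}
    (h : ∀ x y, w (x + y) ≤ max (w x) (w y)) {S : Finset k}
    (hS : ∀ x, w x ≤ 1 → ∃! s, s ∈ S ∧ w (x - s) < 1) : ∃ t : ℚ, t ≠ 0 ∧ w (t : k) < 1 := by
  choose r hr using fun m : ℕ => (hS m (nat_le_one h m)).exists
  obtain ⟨a, b, hab, e⟩ := Finite.exists_ne_map_eq_of_infinite fun m : ℕ => (⟨r m, (hr m).1⟩ : S)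
  have e' : r a = r b := congrArg Subtype.val e
  refine ⟨(a : ℚ) - b, sub_ne_zero.2 (by exact_mod_cast hab), ?_⟩
  have e2 : (((a : ℚ) - b : ℚ) : k) = ((a : k) - r a) + -((b : k) - r b) := by
    rw [e']
    push_cast
    ring
  rw [e2]
  exact (h _ _).trans_lt (max_lt (hr a).2 (by rw [w.map_neg]; exact (hr b).2))

omit [StarRing A] in
theorem small_mem (w : AbsoluteValue k ℝ) {J : Type} [Fintype J] (c : J → A)
    {O : Set (Kv w ⊗[k] A)} (hO : IsOpen[moduleTopology (Kv w) (Kv w ⊗[k] A)] O) (h1 : 1 ∈ O) :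
    ∃ ε : ℝ, 0 < ε ∧ ∀ s : J → k, (∀ j, w (s j) ≤ ε) → (1 : Kv w) ⊗ₜ[k] (1 + ∑ j, s j • c j) ∈ O := by
  let _ : TopologicalSpace (Kv w ⊗[k] A) := moduleTopology (Kv w) (Kv w ⊗[k] A)
  have := ModuleTopology.continuousSMul (Kv w) (Kv w ⊗[k] A)
  have := ModuleTopology.continuousAdd (Kv w) (Kv w ⊗[k] A)
  let ι : WithAbs w → Kv w := fun x => (x : UniformSpace.Completion (WithAbs w))
  have hι : Continuous ι := UniformSpace.Completion.continuous_coe _
  have hι0 : ι 0 = 0 := UniformSpace.Completion.coe_zero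
  have hφ : Continuous fun s : J → WithAbs w =>
      (1 : Kv w ⊗[k] A) + ∑ j, ι (s j) • ((1 : Kv w) ⊗ₜ[k] c j) := by
    fun_prop
  obtain ⟨ε, hε, hb⟩ := Metric.isOpen_iff.1 (hO.preimage hφ) 0 (by simpa [hι0] using h1)
  refine ⟨ε / 2, half_pos hε, fun s hs => ?_⟩
  have hm : (fun j => WithAbs.toAbs w (s j)) ∈ Metric.ball (0 : J → WithAbs w) ε := by
    rw [mem_ball_zero_iff, pi_norm_lt_iff hε]
    exact fun j => (hs j).trans_lt (half_lt_self hε)
  have h2 := hb hm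
  simp only [Set.mem_preimage] at h2
  have e : ∀ x : k, ι (WithAbs.toAbs w x) = algebraMap k (Kv w) x := fun x => rfl
  simp only [e, algebraMap_smul] at h2
  rw [tmul_add, tmul_sum]
  simp only [tmul_smul]
  exact h2

end Csp

omit [StarRing K] [StarRing A] [Algebra k A] [IsScalarTower k K A] [StarModule K A] in
/-- A nonarchimedean place of a number field lies over a prime. -/
theorem prime_below [NumberField k] (v : AG k K A) : ∃ q : Nat.Primes, ∀ ε : ℝ, 0 < ε →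
    ∃ η : ℝ, 0 < η ∧ ∀ t : ℚ, ‖(t : ℚ_[(q : ℕ)])‖ ≤ η → v.abv (t : k) ≤ ε := by
  obtain ⟨S, -, hS, -⟩ := v.normalized
  obtain ⟨x, hx0, hx⟩ := Csp.exists_small v.nonarch hS
  obtain ⟨p, ⟨hp, he⟩, -⟩ := Rat.AbsoluteValue.equiv_padic_of_bounded (f := Csp.resQ v.abv)
    ⟨x, hx0, hx.ne⟩ fun m => by
      rw [Csp.resQ_apply, Rat.cast_natCast]
      exact Csp.nat_le_one v.nonarch m
  refine ⟨⟨p, hp.out⟩, fun ε hε => ?_⟩
  obtain ⟨m, hm⟩ := exists_pow_lt_of_lt_one hε hx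
  refine ⟨‖((x ^ m : ℚ) : ℚ_[p])‖, norm_pos_iff.2 (by exact_mod_cast pow_ne_zero m hx0),
    fun t ht => ?_⟩
  have h1 : Csp.resQ v.abv t ≤ Csp.resQ v.abv (x ^ m) := by
    rw [he.le_iff_le, Rat.AbsoluteValue.padic_eq_padicNorm, Rat.AbsoluteValue.padic_eq_padicNorm,
      ← Padic.eq_padicNorm, ← Padic.eq_padicNorm]
    exact ht
  rw [map_pow] at h1
  exact h1.trans hm.le

omit [StarRing K] [IsScalarTower k K A] [StarModule K A] in
/-- The congruence condition, given finitely many primes below the places. -/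
theorem csp_of [NumberField k] (f : A →ₐ[K] Matrix (Fin n) (Fin n) Ω)
    {δ : GK f →* HA k K A n} (hd : ∀ g, Diag g.1.1 (δ g)) (hQ : Q1 δ) {TA : Finset Nat.Primes}
    (hT : ∀ v : AG k K A, ∃ q ∈ TA, ∀ ε : ℝ, 0 < ε →
      ∃ η : ℝ, 0 < η ∧ ∀ t : ℚ, ‖(t : ℚ_[((q : Nat.Primes) : ℕ)])‖ ≤ η → v.abv (t : k) ≤ ε)
    (J : Type) [Fintype J] (c : J → A) (H : Subgroup (GK f)) (hH : H.FiniteIndex) :
    ∃ ε : ℝ, 0 < ε ∧ ∀ (g : GK f) (t : J → ℚ),
      (∀ q ∈ TA, ∀ j, ‖(t j : ℚ_[((q : Nat.Primes) : ℕ)])‖ ≤ ε) →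
      (g.1.1 : A) - 1 = ∑ j, (t j : k) • c j → g ∈ H := by
  obtain ⟨W, hW, rfl, -⟩ := hQ.2 H hH.index_ne_zero
  obtain ⟨I, u, hu, hI⟩ := isOpen_pi_iff.1 hW 1 W.one_mem
  have key : ∀ v ∈ I, ∃ η : ℝ, 0 < η ∧ ∀ (g : GK f) (t : J → ℚ),
      (∀ q ∈ TA, ∀ j, ‖(t j : ℚ_[((q : Nat.Primes) : ℕ)])‖ ≤ η) →
      (g.1.1 : A) - 1 = ∑ j, (t j : k) • c j → δ g v ∈ u v := by
    intro v hv
    obtain ⟨O, hO, hOu⟩ := (hu v hv).1
    have h1 : (1 : Kv v.abv ⊗[k] A) ∈ O := by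
      have := (hu v hv).2
      rw [← hOu] at this
      exact this
    obtain ⟨ε, hε, hs⟩ := Csp.small_mem v.abv c hO h1
    obtain ⟨q, hq, hq'⟩ := hT v
    obtain ⟨η, hη, hη'⟩ := hq' ε hε
    refine ⟨η, hη, fun g t ht hg => ?_⟩
    have h2 := hs (fun j => (t j : k)) fun j => hη' _ (ht q hq j)
    rw [← hg, add_sub_cancel, ← hd g v] at h2
    rw [← hOu]
    exact h2
  choose! η hη hη' using key
  have hev : ∀ᶠ ε in 𝓝[>] (0 : ℝ), ∀ v ∈ I, ε ≤ η v :=
    (Finset.eventually_all I).2 fun v hv =>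
      mem_nhdsWithin_of_mem_nhds (Iic_mem_nhds (hη v hv))
  obtain ⟨ε, h1, h2⟩ := (hev.and self_mem_nhdsWithin).exists
  refine ⟨ε, h2, fun g t ht hg => ?_⟩
  exact hI fun v hv => hη' v hv g t (fun q hq j => (ht q hq j).trans (h1 v hv)) hg

end Vale.Agent.P011Z.ModA
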