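import Vale.Agent.P011Z.SysF
import Vale.Agent.P011.H973.Bimul

/-!
Semilinear splittings of a central simple algebra.
-/

open Matrix Module Algebra Kronecker

namespace Vale.Agent.P011Z.ModA

variable {K A Ω ι : Type} [Field K] [Ring A] [Algebra K A] [Field Ω] [Fintype ι] [DecidableEq ι]
  {n : ℕ}

/-- The ring homomorphism is semilinear. -/
def Spl (τ : K →+* Ω) (f : A →+* Matrix (Fin n) (Fin n) Ω) : Prop :=
  ∀ (c : K) (x : A), f (c • x) = τ c • f x

/-- The trace of the left multiplication. -/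
noncomputable def tr (b : Basis ι K A) : A →ₗ[K] K :=
  traceLinearMap ι K K ∘ₗ (leftMulMatrix b).toLinearMap

theorem tr_apply (b : Basis ι K A) (x : A) : tr b x = (leftMulMatrix b x).trace := rfl

theorem tr_comm (b : Basis ι K A) (x y : A) : tr b (x * y) = tr b (y * x) := by
  rw [tr_apply, tr_apply, map_mul, map_mul, trace_mul_comm]

theorem tr_one (b : Basis ι K A) : tr b 1 = Fintype.card ι := by
  rw [tr_apply, map_one, trace_one]

theorem tr_nondeg [IsSimpleRing A] [CharZero K] (b : Basis ι K A) {y : A}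
    (h : ∀ x, tr b (x * y) = 0) : y = 0 := by
  let I : TwoSidedIdeal A := TwoSidedIdeal.mk' {y | ∀ x, tr b (x * y) = 0} (fun x => by simp)
    (fun {y z} hy hz x => by rw [mul_add, map_add, hy x, hz x, add_zero])
    (fun {y} hy x => by rw [mul_neg, map_neg, hy x, neg_zero])
    (fun {y z} hz x => by rw [← mul_assoc]; exact hz _)
    (fun {y z} hy x => by rw [← mul_assoc, tr_comm, ← mul_assoc]; exact hy _)
  by_contra hy
  have h1 := IsSimpleRing.one_mem_of_ne_zero_mem I hy ((TwoSidedIdeal.mem_mk' ..).2 h)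
  have h2 := (TwoSidedIdeal.mem_mk' ..).1 h1 1
  rw [mul_one, tr_one, Nat.cast_eq_zero, Fintype.card_eq_zero_iff] at h2
  exact hy (b.ext_elem fun i => h2.elim i)

theorem Spl.exists_basis [IsSimpleRing A] [IsCentral K A] {τ : K →+* Ω}
    {f : A →+* Matrix (Fin n) (Fin n) Ω} (h : Spl τ f) (b : Basis ι K A) (hn : n ≠ 0)
    (hc : Fintype.card ι = n ^ 2) :
    ∃ bf : Basis ι Ω (Matrix (Fin n) (Fin n) Ω), ∀ i, bf i = f (b i) := by
  classical
  have : Nonempty ι := Fintype.card_pos_iff.1 (by rw [hc]; positivity)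
  have : Nonempty (Fin n) := ⟨⟨0, Nat.pos_of_ne_zero hn⟩⟩
  have li : LinearIndependent Ω fun i => f (b i) := by
    rw [Fintype.linearIndependent_iff]
    intro c hc j
    obtain ⟨m, x, y, hxy⟩ := P011.H973.exists_bimul ((b.coord j).smulRight (1 : A))
      (Finset.univ.image b)
    have h1 : ∀ l, ∑ t, f (x t) * f (b l) * f (y t) = if l = j then 1 else 0 := fun l => by
      have h2 := congrArg f (hxy (b l) (Finset.mem_image_of_mem _ (Finset.mem_univ l)))
      rw [LinearMap.smulRight_apply, Basis.coord_apply, b.repr_self, Finsupp.single_apply,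
        map_sum] at h2
      simp only [map_mul] at h2
      rw [← h2]
      split_ifs <;> simp
    have h3 : ∑ t, f (x t) * (∑ l, c l • f (b l)) * f (y t) = c j • (1 : Matrix _ _ Ω) := by
      simp only [Finset.mul_sum, Finset.sum_mul, mul_smul_comm, smul_mul_assoc]
      rw [Finset.sum_comm]
      simp only [← Finset.smul_sum, h1]
      simp
    rw [hc] at h3
    simp only [mul_zero, zero_mul, Finset.sum_const_zero] at h3
    exact (smul_eq_zero.1 h3.symm).resolve_right one_ne_zero
  refine ⟨basisOfLinearIndependentOfCardEqFinrank li ?_, fun i => by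
    rw [coe_basisOfLinearIndependentOfCardEqFinrank]⟩
  rw [hc, finrank_matrix, Fintype.card_fin, finrank_self, mul_one, sq]

section

variable {τ : K →+* Ω} {f : A →+* Matrix (Fin n) (Fin n) Ω} {b : Basis ι K A}
  {bf : Basis ι Ω (Matrix (Fin n) (Fin n) Ω)}

omit [DecidableEq ι] in
theorem Spl.eq_sum (h : Spl τ f) (hb : ∀ i, bf i = f (b i)) (x : A) :
    f x = ∑ i, τ (b.repr x i) • bf i := by
  conv_lhs => rw [← b.sum_repr x, map_sum]
  exact Finset.sum_congr rfl fun i _ => by rw [h, hb]

omit [DecidableEq ι] in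
theorem Spl.repr (h : Spl τ f) (hb : ∀ i, bf i = f (b i)) (x : A) (i : ι) :
    bf.repr (f x) i = τ (b.repr x i) := by
  rw [h.eq_sum hb, bf.repr_sum_self]

theorem Spl.lmm (h : Spl τ f) (hb : ∀ i, bf i = f (b i)) (x : A) :
    (leftMulMatrix b x).map τ = leftMulMatrix bf (f x) := by
  ext i j
  rw [map_apply, leftMulMatrix_eq_repr_mul, leftMulMatrix_eq_repr_mul, hb, ← map_mul, h.repr hb]

end

theorem lmm_std (Y : Matrix (Fin n) (Fin n) Ω) :
    leftMulMatrix (stdBasis Ω (Fin n) (Fin n)) Y = Y ⊗ₖ (1 : Matrix (Fin n) (Fin n) Ω) := by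
  have h : ∀ (M : Matrix (Fin n) (Fin n) Ω) (p : Fin n × Fin n),
      (stdBasis Ω (Fin n) (Fin n)).repr M p = M p.1 p.2 := fun M p => by
    simp [stdBasis]
  ext ⟨i, j⟩ ⟨k, l⟩
  rw [leftMulMatrix_eq_repr_mul, h, stdBasis_eq_single, kroneckerMap_apply]
  by_cases hl : j = l
  · subst hl; simp
  · simp [hl, one_apply_ne hl]

theorem det_lmm (bf : Basis ι Ω (Matrix (Fin n) (Fin n) Ω)) (Y : Matrix (Fin n) (Fin n) Ω) :
    (leftMulMatrix bf Y).det = Y.det ^ n := by
  rw [← norm_eq_matrix_det, norm_eq_matrix_det (stdBasis Ω (Fin n) (Fin n)), lmm_std,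
    det_kronecker]
  simp

theorem trace_lmm (bf : Basis ι Ω (Matrix (Fin n) (Fin n) Ω)) (Y : Matrix (Fin n) (Fin n) Ω) :
    (leftMulMatrix bf Y).trace = n * Y.trace := by
  rw [leftMulMatrix_apply, ← LinearMap.trace_eq_matrix_trace,
    LinearMap.trace_eq_matrix_trace Ω (stdBasis Ω (Fin n) (Fin n)), ← leftMulMatrix_apply, lmm_std,
    trace_kronecker, trace_one, Fintype.card_fin, mul_comm]

section

variable {τ : K →+* Ω} {f : A →+* Matrix (Fin n) (Fin n) Ω} {b : Basis ι K A}
  {bf : Basis ι Ω (Matrix (Fin n) (Fin n) Ω)}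

theorem Spl.det (h : Spl τ f) (hb : ∀ i, bf i = f (b i)) (x : A) :
    τ (leftMulMatrix b x).det = (f x).det ^ n := by
  rw [τ.map_det, RingHom.mapMatrix_apply, h.lmm hb, det_lmm]

theorem Spl.tr (h : Spl τ f) (hb : ∀ i, bf i = f (b i)) (x : A) :
    τ (tr b x) = n * (f x).trace := by
  rw [tr_apply, ← trace_lmm bf, ← h.lmm hb, Matrix.trace, Matrix.trace, map_sum]
  rfl

end

section star

variable [StarRing K] [StarRing A] [StarModule K A]

/-- The dual splitting. -/
def dual (f : A →+* Matrix (Fin n) (Fin n) Ω) : A →+* Matrix (Fin n) (Fin n) Ω where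
  toFun x := (f (star x))ᵀ
  map_one' := by simp
  map_mul' x y := by simp
  map_zero' := by simp
  map_add' x y := by simp

omit [StarRing K] [StarModule K A] [Algebra K A] in
theorem dual_apply (f : A →+* Matrix (Fin n) (Fin n) Ω) (x : A) : dual f x = (f (star x))ᵀ := rfl

theorem Spl.dual {τ : K →+* Ω} {f : A →+* Matrix (Fin n) (Fin n) Ω} (h : Spl τ f) :
    Spl (τ.comp (starRingEnd K)) (dual f) := fun c x => by
  rw [dual_apply, dual_apply, star_smul, h, transpose_smul]
  rfl

theorem Spl.tr_star [IsSimpleRing A] [IsCentral K A] {τ : K →+* Ω}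
    {f : A →+* Matrix (Fin n) (Fin n) Ω} (h : Spl τ f) (b : Basis ι K A) (hn : n ≠ 0)
    (hc : Fintype.card ι = n ^ 2) (x : A) : ModA.tr b (star x) = star (ModA.tr b x) := by
  obtain ⟨bf, hb⟩ := h.exists_basis b hn hc
  obtain ⟨bg, hg⟩ := h.dual.exists_basis b hn hc
  refine τ.injective ?_
  rw [h.tr hb, ← trace_transpose, ← dual_apply, ← h.dual.tr hg]
  rfl

end star

/-- A splitting over a finite extension. -/
theorem exists_finite_split [Algebra K Ω] (f : A →ₐ[K] Matrix (Fin n) (Fin n) Ω) (b : Basis ι K A) :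
    ∃ (E : Type) (_ : Field E) (_ : Algebra K E) (_ : Module.Finite K E)
      (g : A →+* Matrix (Fin n) (Fin n) E), Spl (algebraMap K E) g := by
  classical
  let s : Finset Ω := Finset.univ.image fun p : ι × Fin n × Fin n => f (b p.1) p.2.1 p.2.2
  let R : Subalgebra K Ω := adjoin K (s : Set Ω)
  have hR : ∀ x i j, f x i j ∈ R := fun x i j => by
    rw [← b.sum_repr x, map_sum, Matrix.sum_apply]
    refine R.sum_mem fun l _ => ?_
    rw [map_smul, Matrix.smul_apply]
    exact R.smul_mem (subset_adjoin (Finset.mem_coe.2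
      (Finset.mem_image_of_mem _ (Finset.mem_univ (l, i, j))))) _
  have : FiniteType K R := FiniteType.adjoin_of_finite s.finite_toSet
  obtain ⟨M, hM⟩ := Ideal.exists_maximal R
  let : Field (R ⧸ M) := Ideal.Quotient.field M
  have : Module.Finite K (R ⧸ M) := finite_of_finite_type_of_isJacobsonRing K (R ⧸ M)
  have hinj : Function.Injective (R.val.toRingHom.mapMatrix :
      Matrix (Fin n) (Fin n) R →+* Matrix (Fin n) (Fin n) Ω) := fun X Y h => by
    ext i j
    exact congrFun (congrFun h i) j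
  let g0 : A → Matrix (Fin n) (Fin n) R := fun x => of fun i j => ⟨f x i j, hR x i j⟩
  have hg : ∀ x, R.val.toRingHom.mapMatrix (g0 x) = f x := fun x => rfl
  let g : A →+* Matrix (Fin n) (Fin n) R :=
    { toFun := g0
      map_one' := hinj (by rw [hg, map_one, map_one])
      map_mul' := fun x y => hinj (by rw [map_mul, hg, hg, hg, map_mul])
      map_zero' := hinj (by rw [hg, map_zero, map_zero])
      map_add' := fun x y => hinj (by rw [map_add, hg, hg, hg, map_add]) }
  refine ⟨R ⧸ M, inferInstance, inferInstance, inferInstance,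
    (Ideal.Quotient.mk M).mapMatrix.comp g, fun c x => ?_⟩
  ext i j
  have h1 : g0 (c • x) i j = algebraMap K R c * g0 x i j := Subtype.ext (by
    change f (c • x) i j = algebraMap K Ω c * f x i j
    rw [map_smul, Matrix.smul_apply, Algebra.smul_def])
  change Ideal.Quotient.mk M (g0 (c • x) i j) = algebraMap K (R ⧸ M) c * Ideal.Quotient.mk M (g0 x i j)
  rw [h1, map_mul]
  rfl

theorem Spl.comp {E : Type} [Field E] {τ : K →+* E} {f : A →+* Matrix (Fin n) (Fin n) E}
    (h : Spl τ f) (φ : E →+* Ω) : Spl (φ.comp τ) (φ.mapMatrix.comp f) := fun c x => by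
  ext i j
  simp [h c x]

end Vale.Agent.P011Z.ModA
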