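import Vale.Agent.P011Z.ModA.Spl

/-!
The system of tensors for the special unitary group.
-/

open Matrix Module Algebra

namespace Vale.Agent.P011Z.ModA

variable {K A Ω : Type} [Field K] [StarRing K] [Ring A] [StarRing A] [Algebra K A] [StarModule K A]
  [Field Ω] {N n : ℕ} (b : Basis (Fin N) K A)

/-- The sesquilinear form attached to a linear form. -/
noncomputable abbrev sq (φ : A →ₗ[K] K) : TnF K (Fin N) :=
  ⟨2, ![starRingEnd K, RingHom.id K], fun j => φ (star (b (j 0)) * b (j 1))⟩

/-- The determinant. -/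
noncomputable abbrev dt (K : Type) [Field K] (N : ℕ) : TnF K (Fin N) :=
  ⟨N, fun _ => RingHom.id K, fun j => det (of fun r => Pi.single (j r) 1)⟩

theorem sum_det (x : Fin N → Fin N → Ω) :
    ∑ j : Fin N → Fin N, det (of fun r => Pi.single (j r) (1 : Ω)) * ∏ r, x r (j r) = det (of x) := by
  have h : x = fun r => ∑ i, x r i • (Pi.single i 1 : Fin N → Ω) := by
    funext r
    exact pi_eq_sum_univ' (x r)
  have h2 := (detRowAlternating (n := Fin N) (R := Ω)).toMultilinearMap.map_sum
    fun r i => x r i • (Pi.single i 1 : Fin N → Ω)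
  rw [← h] at h2
  refine (h2.trans (Finset.sum_congr rfl fun j _ => ?_)).symm
  rw [MultilinearMap.map_smul_univ, smul_eq_mul, mul_comm]
  rfl

omit [StarRing K] in
theorem dt_ev (x : Fin N → Fin N → K) : (dt K N).ev x = det (of x) := sum_det x

omit [StarRing K] in
theorem dt_evE (τ : K →+* Ω) (x : Fin N → Fin N → Ω) : (dt K N).evE τ x = det (of x) := by
  rw [← sum_det x]
  refine Finset.sum_congr rfl fun j _ => ?_
  congr 1
  refine (τ.map_det _).trans (congrArg det ?_)
  ext r i
  simp [Pi.single_apply]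

theorem det_rows (g : Matrix (Fin N) (Fin N) Ω) (x : Fin N → Fin N → Ω) :
    det (of fun r => g *ᵥ x r) = det (of x) * g.det := by
  rw [← det_transpose g, ← det_mul]
  congr 1
  ext r i
  simp [mul_apply, mulVec, dotProduct, mul_comm]

theorem sum_det_update (X : Matrix (Fin N) (Fin N) Ω) (x : Fin N → Fin N → Ω) :
    ∑ r, det (of (Function.update x r (X *ᵥ x r))) = det (of x) * X.trace := by
  have h : ∀ r, det (of (Function.update x r (X *ᵥ x r))) = (adjugate (of x)ᵀ * X * (of x)ᵀ) r r :=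
    fun r => by
      have h1 := cramer_transpose_apply (of x) (X *ᵥ x r) r
      rw [cramer_eq_adjugate_mulVec, mulVec_mulVec] at h1
      exact h1.symm
  rw [Finset.sum_congr rfl fun r _ => h r]
  change (adjugate (of x)ᵀ * X * (of x)ᵀ).trace = _
  rw [trace_mul_comm, ← Matrix.mul_assoc, mul_adjugate, det_transpose, smul_mul, Matrix.one_mul,
    trace_smul, smul_eq_mul]

theorem sum_two {R : Type} [AddCommMonoid R] (F : (Fin 2 → Fin N) → R) :
    ∑ j, F j = ∑ i, ∑ l, F ![i, l] := by
  rw [← (piFinTwoEquiv fun _ => Fin N).symm.sum_comp, Fintype.sum_prod_type]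
  rfl

theorem sq_ev (φ : A →ₗ[K] K) (x : Fin 2 → Fin N → K) :
    (sq b φ).ev x = φ (star (b.equivFun.symm (x 0)) * b.equivFun.symm (x 1)) := by
  rw [Basis.equivFun_symm_apply, Basis.equivFun_symm_apply, star_sum, Finset.sum_mul_sum, map_sum]
  refine (sum_two _).trans (Finset.sum_congr rfl fun i _ => ?_)
  rw [map_sum]
  refine Finset.sum_congr rfl fun l _ => ?_
  rw [star_smul, smul_mul_smul_comm, map_smul, smul_eq_mul, mul_comm]
  exact congrArg (· * _) (Fin.prod_univ_two _)

omit [StarRing K] [StarRing A] [StarModule K A] in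
theorem el_lmm (u : A) (v : Fin N → K) :
    b.equivFun.symm (leftMulMatrix b u *ᵥ v) = u * b.equivFun.symm v := by
  obtain ⟨y, rfl⟩ := b.equivFun.surjective v
  rw [LinearEquiv.symm_apply_apply, Basis.equivFun_apply, leftMulMatrix_mulVec_repr,
    ← Basis.equivFun_apply, LinearEquiv.symm_apply_apply]

omit [StarRing K] [StarRing A] [StarModule K A] in
theorem eq_lmm {g : Matrix (Fin N) (Fin N) K} {u : A}
    (h : ∀ v, b.equivFun.symm (g *ᵥ v) = u * b.equivFun.symm v) : g = leftMulMatrix b u :=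
  ext_iff_mulVec.2 fun v => b.equivFun.symm.injective (by rw [h, el_lmm])

/-- The system. -/
noncomputable def sys [IsSimpleRing A] [CharZero K] : SysF K (Fin N) where
  T := insert (sq b (tr b)) (insert (dt K N) (Set.range fun i => sq b (b.coord i)))
  fin := ((Set.finite_range _).insert _).insert _
  σ := ![starRingEnd K, RingHom.id K]
  B := of fun i j => tr b (star (b i) * b j)
  detB := fun h => by
    obtain ⟨v, hv, h0⟩ := exists_mulVec_eq_zero_iff.2 h
    refine hv (b.equivFun.symm.map_eq_zero_iff.1 (tr_nondeg b fun x => ?_))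
    rw [← star_star x, ← b.sum_repr (star x), star_sum, Finset.sum_mul, map_sum]
    refine Finset.sum_eq_zero fun i _ => ?_
    have h1 := congrFun h0 i
    simp only [mulVec, dotProduct, of_apply, Pi.zero_apply] at h1
    rw [star_smul, smul_mul_assoc, map_smul, Basis.equivFun_symm_apply, Finset.mul_sum, map_sum]
    simp only [mul_smul_comm, map_smul, smul_eq_mul, mul_comm (v _)]
    rw [h1, mul_zero]
  memB := Set.mem_insert _ _

variable [IsSimpleRing A] [CharZero K]

theorem forall_T {P : TnF K (Fin N) → Prop} (h1 : ∀ φ, P (sq b φ)) (h2 : P (dt K N)) :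
    ∀ t ∈ (sys b).T, P t := by
  rintro t (rfl | rfl | ⟨i, rfl⟩)
  exacts [h1 _, h2, h1 _]

theorem dt_mem : dt K N ∈ (sys b).T := Or.inr (Or.inl rfl)

theorem sq_mem (i : Fin N) : sq b (b.coord i) ∈ (sys b).T := Or.inr (Or.inr ⟨i, rfl⟩)

theorem lmm_mem_mon {u : A} (hu : star u * u = 1) (hd : (leftMulMatrix b u).det = 1) :
    leftMulMatrix b u ∈ (sys b).mon := by
  refine forall_T b (fun φ x => ?_) fun x => ?_
  · rw [sq_ev, sq_ev, el_lmm, el_lmm, star_mul, mul_assoc, ← mul_assoc (star u), hu, one_mul]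
  · rw [dt_ev, dt_ev, det_rows, hd, mul_one]

theorem of_mem_mon {g : Matrix (Fin N) (Fin N) K} (hg : g ∈ (sys b).mon) :
    ∃ u ∈ unitary A, g = leftMulMatrix b u ∧ g.det = 1 := by
  have h1 : ∀ v w, star (b.equivFun.symm (g *ᵥ v)) * b.equivFun.symm (g *ᵥ w)
      = star (b.equivFun.symm v) * b.equivFun.symm w := fun v w => b.ext_elem fun i => by
    have h := hg _ (sq_mem b i) ![v, w]
    rwa [sq_ev, sq_ev] at h
  set u := b.equivFun.symm (g *ᵥ b.equivFun 1) with hu
  have h2 : ∀ w, star u * b.equivFun.symm (g *ᵥ w) = b.equivFun.symm w := fun w => by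
    rw [hu, h1, LinearEquiv.symm_apply_apply, star_one, one_mul]
  have h3 : star u * u = 1 := by
    rw [hu, h1, LinearEquiv.symm_apply_apply, star_one, one_mul]
  have h4 : u * star u = 1 := leftMulMatrix_injective b (by
    rw [map_mul, map_one, mul_eq_one_comm, ← map_mul, h3, map_one])
  refine ⟨u, ⟨h3, h4⟩, eq_lmm b fun v => by rw [← h2 v, ← mul_assoc, h4, one_mul], ?_⟩
  have h := hg _ (dt_mem b) (of.symm 1)
  rwa [dt_ev, dt_ev, det_rows, Equiv.apply_symm_apply, det_one, one_mul] at h

theorem lmm_mem_lie {y : A} (hy : star y = -y) (ht : tr b y = 0) :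
    leftMulMatrix b y ∈ (sys b).lie := by
  refine forall_T b (fun φ x => ?_) fun x => ?_
  · refine (Fin.sum_univ_two _).trans ?_
    rw [sq_ev, sq_ev, ← map_add]
    simp only [Function.update_self, ne_eq, one_ne_zero, zero_ne_one, not_false_eq_true,
      Function.update_of_ne, el_lmm, star_mul, hy]
    rw [mul_neg, neg_mul, mul_assoc, neg_add_cancel, map_zero]
  · simp only [dt_ev]
    exact (sum_det_update _ x).trans (by rw [← tr_apply, ht, mul_zero])

theorem of_mem_lie {X : Matrix (Fin N) (Fin N) K} (hX : X ∈ (sys b).lie) :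
    ∃ y, X = leftMulMatrix b y ∧ tr b y = 0 := by
  have h1 : ∀ v w, star (b.equivFun.symm (X *ᵥ v)) * b.equivFun.symm w
      + star (b.equivFun.symm v) * b.equivFun.symm (X *ᵥ w) = 0 := fun v w => b.ext_elem fun i => by
    have h := (Fin.sum_univ_two _).symm.trans (hX _ (sq_mem b i) ![v, w])
    rw [sq_ev, sq_ev, ← map_add] at h
    simpa using h
  have h2 : X = leftMulMatrix b (-star (b.equivFun.symm (X *ᵥ b.equivFun 1))) :=
    eq_lmm b fun w => by
      have h := h1 (b.equivFun 1) w
      rw [LinearEquiv.symm_apply_apply, star_one, one_mul] at h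
      rw [neg_mul]
      exact eq_neg_of_add_eq_zero_right h
  refine ⟨_, h2, ?_⟩
  have h := hX _ (dt_mem b) (1 : Matrix (Fin N) (Fin N) K)
  simp only [dt_ev] at h
  have e : det (of (1 : Matrix (Fin N) (Fin N) K)) = 1 := det_one
  rw [tr_apply, ← h2, ← one_mul X.trace, ← e]
  exact (sum_det_update _ _).symm.trans h

theorem stable (ha : ∀ x : A, star x * x = 0 → x = 0) : (sys b).Stable := by
  intro W hW _
  obtain ⟨w, hw, h0⟩ := Submodule.exists_mem_ne_zero_of_ne_bot hW
  have h1 : star (b.equivFun.symm w) * b.equivFun.symm w ≠ 0 := fun h =>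
    h0 (b.equivFun.symm.map_eq_zero_iff.1 (ha _ h))
  obtain ⟨i, hi⟩ : ∃ i, b.repr (star (b.equivFun.symm w) * b.equivFun.symm w) i ≠ 0 := by
    by_contra h
    exact h1 (b.ext_elem fun i => by simpa using not_exists.1 h i)
  exact ⟨_, sq_mem b i, two_pos, fun _ => w, fun _ => hw, by rwa [sq_ev]⟩

omit [StarRing K] [Algebra K A] [StarModule K A] [IsSimpleRing A] [CharZero K] in
theorem eq_one_of_nil (ha : ∀ x : A, star x * x = 0 → x = 0) {u : A} (hu : star u * u = 1)
    (h : IsNilpotent (u - 1)) : u = 1 := by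
  obtain ⟨m, hm⟩ := h
  have key : ∀ m : ℕ, (u - 1) ^ (m + 1) = 0 → u - 1 = 0 := by
    intro m
    induction m with
    | zero => simp
    | succ m ih =>
      intro h
      refine ih (ha _ ?_)
      set y := (u - 1) ^ (m + 1) with hy
      have h1 : u * y = y := by rwa [pow_succ', ← hy, sub_mul, one_mul, sub_eq_zero] at h
      have h2 : star (u - 1) * y = 0 := by
        rw [star_sub, star_one, sub_mul, one_mul, sub_eq_zero]
        conv_lhs => rw [← h1, ← mul_assoc, hu, one_mul]
      conv_lhs => rw [hy, star_pow, pow_succ, mul_assoc, ← hy, h2, mul_zero]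
  exact sub_eq_zero.1 (key m (by rw [pow_succ, hm, zero_mul]))

omit [IsSimpleRing A] in
/-- The skew elements of trace zero span the elements of trace zero. -/
theorem exists_skew (hs : ∀ x, tr b (star x) = star (tr b x)) (hd : ∃ d : K, star d ≠ d) {y : A}
    (hy : tr b y = 0) : ∃ (y₁ y₂ : A) (c₁ c₂ : K), star y₁ = -y₁ ∧ star y₂ = -y₂ ∧ tr b y₁ = 0 ∧
      tr b y₂ = 0 ∧ y = c₁ • y₁ + c₂ • y₂ := by
  obtain ⟨d, hd⟩ := hd
  have h0 : star d - d ≠ 0 := sub_ne_zero.2 hd
  have h1 : tr b (star y) = 0 := by rw [hs, hy, star_zero]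
  refine ⟨y - star y, (star d - d) • (y + star y), 2⁻¹, 2⁻¹ * (star d - d)⁻¹, by simp, ?_,
    by rw [map_sub, hy, h1, sub_zero], by rw [map_smul, map_add, hy, h1, add_zero, smul_zero], ?_⟩
  · rw [star_smul, star_sub, star_star, star_add, star_star, add_comm, ← neg_smul, neg_sub]
  · rw [smul_smul, mul_assoc, inv_mul_cancel₀ h0, mul_one, ← smul_add, sub_add_add_cancel,
      ← two_smul K, smul_smul, inv_mul_cancel₀ two_ne_zero, one_smul]

end Vale.Agent.P011Z.ModA
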